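import Vale.Agent.P232.GapPair.Bin6.Items0
import Vale.Agent.P232.GapPair.Bin6.Items1
import Vale.Agent.P232.GapPair.Bin6.Items2
import Vale.Agent.P232.GapPair.Bin6.Items3
import Vale.Agent.P232.GapPair.Bin6.Items4
import Vale.Agent.P232.GapPair.Bin6.Items5
import Vale.Agent.P232.GapPair.Bin6.Items6
import Vale.Agent.P232.GapPair.Bin6.Items7
import Vale.Agent.P232.GapPair.Bin6.Items8
import Vale.Agent.P232.GapPair.Bin6.Items9
import Vale.Agent.P232.GapPair.Bin6.Items10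
import Vale.Agent.P232.GapPair.Bin6.Items11
import Vale.Agent.P232.GapPair.Bin6.Items12
import Vale.Agent.P232.GapPair.Bin6.Items13
import Vale.Agent.P232.GapPair.Bin6.Items14

/-! # P232: certificate for one small axis, the tree -/

namespace Vale.Agent.P232.GapPair.Bin6

/-- All items of the interval. -/
def items : List Item :=
  chunk0 ++ chunk1 ++ chunk2 ++ chunk3 ++ chunk4 ++ chunk5 ++ chunk6 ++ chunk7 ++ chunk8 ++ chunk9 ++ chunk10 ++ chunk11 ++ chunk12 ++ chunk13 ++ chunk14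

def part0 : PTree := (.cutX 6850000 (.cutY 910000 (.cutZ 1600000 (.cutZ 1200000 (.cutZ 800000 (.cutY 700000 (.pair 232 233 5) (.pair 232 234 5)) (.cutY 700000 (.cutZ 1000000 (.pair 232 233 21) (.pair 232 233 9)) (.cutZ 1000000 (.pair 232 234 21) (.pair 232 234 9)))) (.cutY 700000 (.cutZ 1400000 (.pair 232 233 110) (.pair 232 233 38)) (.cutZ 1400000 (.cutY 800000 (.pair 232 19 110) (.pair 232 21 110)) (.cutY 800000 (.pair 232 55 38) (.pair 232 235 38))))) (.cutZ 2400000 (.cutZ 2000000 (.cutY 700000 (.cutZ 1800000 (.pair 232 236 54) (.cutY 600000 (.pair 232 186 150) (.pair 232 126 150))) (.cutZ 1800000 (.cutY 800000 (.pair 232 55 54) (.cutZ 1700000 (.pair 232 235 187) (.cutY 850000 (.pair 232 66 67) (.pair 232 237 238)))) (.cutY 800000 (.cutZ 1900000 (.pair 232 55 69) (.cutY 750000 (.pair 232 55 68) (.pair 232 239 68))) (.cutZ 1900000 (.cutY 850000 (.pair 232 240 69) (.cutY 880000 (.pair 232 151 69) (.cutZ 1850000 (.pair 232 237 223)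 (.pair 232 241 199)))) (.cutY 850000 (.pair 232 242 68) (.cutY 880000 (.cutZ 1950000 (.pair 232 151 226) (.pair 232 151 227)) (.cutZ 1950000 (.pair 232 241 226) (.pair 232 241 227)))))))) (.cutY 700000 (.cutZ 2200000 (.cutY 600000 (.pair 232 56 57) (.pair 232 218 57)) (.cutY 600000 (.pair 232 56 58) (.pair 232 218 58))) (.cutZ 2200000 (.cutY 800000 (.cutZ 2100000 (.cutY 750000 (.pair 232 55 217) (.pair 232 239 217)) (.cutY 750000 (.pair 232 114 100) (.pair 232 243 100))) (.cutZ 2100000 (.cutY 850000 (.pair 232 244 217) (.cutY 880000 (.pair 232 245 217) (.cutZ 2050000 (.pair 232 246 211) (.pair 232 246 212)))) (.cutY 850000 (.pair 232 244 100) (.cutY 880000 (.pair 232 245 100) (.pair 232 246 100))))) (.cutY 800000 (.pair 232 114 58) (.cutZ 2300000 (.cutY 850000 (.pair 232 244 214) (.pair 232 247 214)) (.cutY 850000 (.pair 232 177 182) (.pair 232 247 182))))))) (.cutZ 2800000 (.cutY 700000 (.cutZ 2600000 (.cutY 600000 (.pair 232 56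 104) (.pair 232 218 104)) (.pair 232 248 146)) (.cutZ 2600000 (.cutY 800000 (.pair 232 114 145) (.pair 232 249 145)) (.pair 232 250 146))) (.cutY 700000 (.pair 232 248 105) (.pair 232 250 105))))) .graph) (.cutX 6900000 (.cutY 810000 (.cutZ 1600000 (.cutZ 1200000 (.cutZ 800000 (.cutY 600000 (.pair 251 34 5) (.pair 251 252 5)) (.cutY 600000 (.pair 251 34 7) (.cutZ 1000000 (.pair 251 252 21) (.pair 251 252 9)))) (.cutY 600000 (.pair 251 34 8) (.cutZ 1400000 (.pair 251 253 110) (.pair 251 253 38)))) (.cutZ 2400000 (.cutZ 2000000 (.cutY 600000 (.pair 251 186 10) (.cutZ 1800000 (.cutY 700000 (.pair 251 126 54) (.cutZ 1700000 (.pair 251 254 54) (.pair 251 254 238))) (.cutY 700000 (.pair 251 126 150) (.cutZ 1900000 (.cutY 750000 (.pair 251 55 69) (.pair 251 255 69)) (.cutY 750000 (.pair 251 55 68) (.cutY 780000 (.pair 251 239 68) (.pair 251 256 68))))))) (.cutY 600000 (.cutZ 2200000 (.pair 251 56 57) (.pair 251 56 58)) (.cutZ 2200000 (.cutY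 700000 (.cutZ 2100000 (.pair 251 126 217) (.pair 251 218 257)) (.cutZ 2100000 (.cutY 750000 (.pair 251 258 217) (.cutY 780000 (.pair 251 243 217) (.pair 251 259 217))) (.cutY 750000 (.pair 251 258 257) (.cutY 780000 (.pair 251 243 257) (.pair 251 259 257))))) (.cutY 700000 (.pair 251 218 58) (.cutZ 2300000 (.cutY 750000 (.pair 251 258 58) (.pair 251 260 214)) (.cutY 750000 (.pair 251 114 58) (.pair 251 260 182))))))) (.cutZ 2800000 (.cutY 600000 (.pair 251 56 104) (.cutZ 2600000 (.cutY 700000 (.pair 251 218 104) (.pair 251 261 145)) (.cutY 700000 (.pair 251 218 146) (.pair 251 261 146)))) (.cutY 600000 (.pair 251 56 105) (.pair 251 262 105))))) .graph) (.cutX 6950000 (.cutY 710000 (.cutZ 1600000 (.cutZ 1200000 (.cutZ 800000 (.pair 263 264 5) (.cutZ 1000000 (.pair 263 264 21) (.pair 263 264 9))) (.cutZ 1400000 (.pair 263 265 110) (.pair 263 265 38))) (.cutZ 2400000 (.cutZ 2000000 (.cutZ 1800000 (.cutY 600000 (.pair 263 186 54) (.pair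 263 19 54)) (.cutY 600000 (.pair 263 186 150) (.cutZ 1900000 (.pair 263 266 150) (.cutY 650000 (.pair 263 126 150) (.pair 263 267 68))))) (.cutZ 2200000 (.cutY 600000 (.pair 263 56 57) (.cutZ 2100000 (.cutY 650000 (.pair 263 126 217) (.pair 263 267 217)) (.cutY 650000 (.pair 263 218 257) (.pair 263 268 257)))) (.cutY 600000 (.pair 263 56 58) (.cutZ 2300000 (.cutY 650000 (.pair 263 218 58) (.pair 263 269 58)) (.cutY 650000 (.pair 263 218 58) (.pair 263 269 58)))))) (.cutZ 2800000 (.cutZ 2600000 (.cutY 600000 (.pair 263 56 104) (.pair 263 270 271)) (.cutY 600000 (.pair 263 56 146) (.pair 263 270 146))) (.pair 263 272 105)))) .graph) (.cutX 7000000 (.cutY 600000 (.cutZ 1600000 (.cutZ 1200000 (.cutZ 800000 (.pair 273 34 5) (.pair 273 34 7)) (.pair 273 34 8)) (.cutZ 2400000 (.cutZ 2000000 (.cutZ 1800000 (.pair 273 186 54) (.pair 273 186 150)) (.cutZ 2200000 (.cutZ 2100000 (.pair 273 186 217) (.pair 273 56 257)) (.cutZ 2300000 (.pair 273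 56 274) (.pair 273 56 275)))) (.cutZ 2800000 (.pair 273 56 104) (.pair 273 56 105)))) .graph) .graph))))

def part1 : PTree := (.cutY 900000 (.cutZ 1800000 (.cutZ 1700000 (.pair 183 66 54) (.pair 183 66 67)) (.cutZ 1900000 (.cutY 850000 (.pair 183 66 69) (.pair 183 151 69)) (.cutY 850000 (.pair 183 97 68) (.pair 183 151 68)))) (.cutZ 1800000 (.cutY 1000000 (.cutZ 1700000 (.cutY 950000 (.pair 183 39 83) (.pair 183 115 187)) (.cutY 950000 (.pair 183 152 67) (.cutZ 1750000 (.pair 183 115 67) (.pair 183 115 159)))) (.cutZ 1700000 (.cutY 1040000 (.cutZ 1650000 (.pair 183 185 153) (.pair 183 117 118)) (.cutZ 1650000 (.pair 183 185 153) (.pair 183 188 118))) (.cutY 1040000 (.cutZ 1750000 (.pair 183 189 190) (.cutX 6720000 (.pair 191 192 159) (.cutY 1020000 (.pair 183 192 159) (.pair 183 193 159)))) (.cutZ 1750000 (.cutX 6720000 (.pair 191 188 190) (.pair 194 195 196)) (.cutX 6720000 (.pair 191 197 159) (.cutX 6740000 (.cutZ 1780000 (.pair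 194 197 159) (.pair 194 197 164)) (.cutZ 1780000 (.pair 194 197 159) (.pair 194 197 164)))))))) (.cutY 1000000 (.cutZ 1900000 (.cutY 950000 (.cutZ 1850000 (.pair 183 152 69) (.pair 183 152 170)) (.cutZ 1850000 (.cutX 6720000 (.pair 191 115 165) (.cutY 980000 (.pair 194 115 69) (.pair 194 198 165))) (.cutX 6720000 (.pair 191 116 199) (.cutY 980000 (.pair 194 116 199) (.pair 194 198 199))))) (.cutY 950000 (.cutZ 1950000 (.pair 183 152 68) (.pair 183 152 121)) (.cutZ 1950000 (.cutX 6720000 (.pair 191 116 138) (.cutY 980000 (.pair 194 116 138) (.pair 194 198 138))) (.cutX 6720000 (.pair 191 116 121) (.cutY 980000 (.pair 194 116 121) (.pair 194 200 121)))))) (.cutZ 1900000 (.cutY 1040000 (.cutZ 1850000 (.cutX 6720000 (.cutY 1020000 (.pair 191 192 165) (.pair 191 193 165)) (.cutY 1020000 (.pair 194 201 165) (.cutX 6740000 (.cutZ 1820000 (.pair 194 193 165) (.pair 194 193 167)) (.cutZ 1820000 (.pair 194 193 165) (.pair 194 193 167))))) (.cutX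 6720000 (.cutY 1020000 (.pair 191 120 199) (.pair 191 166 170)) (.cutY 1020000 (.pair 194 202 199) (.cutX 6740000 (.cutZ 1880000 (.pair 203 166 170) (.pair 203 166 174)) (.cutZ 1880000 (.pair 194 166 204) (.pair 194 166 174)))))) (.cutZ 1850000 (.cutX 6720000 (.cutZ 1820000 (.pair 191 197 165) (.pair 191 197 167)) (.cutX 6740000 (.cutZ 1820000 (.pair 203 197 165) (.pair 203 205 167)) (.cutZ 1820000 (.pair 194 197 206) (.cutY 1050000 (.pair 194 205 167) (.pair 194 207 167))))) (.cutX 6720000 (.cutZ 1880000 (.pair 191 205 204) (.pair 191 205 174)) (.cutX 6740000 (.cutZ 1880000 (.pair 203 205 204) (.pair 203 205 174)) (.cutZ 1880000 (.cutY 1050000 (.pair 194 205 204) (.pair 194 207 204)) (.pair 194 205 174)))))) (.cutY 1040000 (.cutZ 1950000 (.cutX 6720000 (.cutY 1020000 (.pair 191 202 138) (.pair 191 166 138)) (.cutY 1020000 (.pair 194 202 138) (.cutX 6740000 (.pair 203 208 138) (.cutZ 1920000 (.pair 194 208 138) (.pair 194 208 175)))))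 (.cutX 6720000 (.cutY 1020000 (.pair 191 202 121) (.pair 191 208 121)) (.cutY 1020000 (.pair 194 202 121) (.pair 194 208 121)))) (.cutZ 1950000 (.cutX 6720000 (.pair 191 205 138) (.cutX 6740000 (.cutZ 1920000 (.pair 203 205 138) (.pair 203 205 175)) (.cutZ 1920000 (.pair 194 205 138) (.pair 194 205 175)))) (.cutX 6720000 (.pair 191 205 121) (.cutX 6740000 (.cutZ 1980000 (.pair 203 205 121) (.pair 203 205 209)) (.cutZ 1980000 (.pair 194 205 121) (.pair 194 205 209))))))))))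

def part2 : PTree := (.cutX 6750000 (.cutY 1060000 (.cutZ 1600000 (.cutZ 1200000 (.cutY 800000 (.cutZ 800000 (.cutY 600000 (.pair 183 34 5) (.pair 183 19 5)) (.cutY 600000 (.pair 183 34 7) (.cutZ 1000000 (.pair 183 19 21) (.pair 183 19 9)))) (.cutZ 800000 (.cutY 900000 (.pair 183 21 5) .empty) (.cutY 900000 (.cutZ 1000000 (.pair 183 66 21) (.pair 183 66 9)) (.cutZ 1000000 (.pair 183 184 21) (.pair 183 184 9))))) (.cutY 800000 (.cutY 600000 (.pair 183 34 8) (.cutZ 1400000 (.pair 183 19 110) (.pair 183 19 38))) (.cutY 900000 (.cutZ 1400000 (.pair 183 66 110) (.pair 183 66 38)) (.cutZ 1400000 (.cutY 1000000 (.pair 183 39 110) (.pair 183 35 110)) (.cutY 1000000 (.cutZ 1500000 (.pair 183 39 38) (.pair 183 39 112)) (.cutZ 1500000 (.pair 183 35 45) (.pair 183 185 112))))))) (.cutZ 2400000 (.cutY 800000 (.cutZ 2000000 (.cutY 600000 (.pair 183 186 10) (.cutZ 1800000 (.pair 183 19 54) (.cutY 700000 (.pair 183 126 150) (.pair 183 55 150))))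 (.cutY 600000 (.pair 183 56 12) (.cutZ 2200000 (.cutY 700000 (.pair 183 126 57) (.cutZ 2100000 (.pair 183 55 57) (.pair 183 114 100))) (.cutY 700000 (.pair 183 53 58) (.pair 183 114 58))))) (.cutZ 2000000 part1 (.cutY 900000 (.cutZ 2200000 (.cutZ 2100000 (.cutY 850000 (.pair 183 97 99) (.pair 183 151 99)) (.cutY 850000 (.pair 183 97 100) (.pair 183 151 100))) (.pair 183 177 178)) (.cutZ 2200000 (.cutY 1000000 (.cutZ 2100000 (.cutY 950000 (.pair 183 210 99) (.cutZ 2050000 (.pair 183 176 211) (.pair 183 176 212))) (.cutY 950000 (.pair 183 210 100) (.pair 183 176 100))) (.cutZ 2100000 (.cutY 1040000 (.cutZ 2050000 (.cutX 6720000 (.pair 191 142 211) (.cutY 1020000 (.pair 194 142 211) (.pair 194 208 211))) (.pair 183 142 212)) (.cutZ 2050000 (.pair 183 213 211) (.pair 183 213 212))) (.cutY 1040000 (.pair 183 142 100) (.pair 183 213 100)))) (.cutY 1000000 (.cutZ 2300000 (.pair 183 98 214) (.pair 183 98 182)) (.pair 183 101 178)))))) (.cutY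 800000 (.cutZ 2800000 (.cutY 600000 (.pair 183 56 104) (.cutZ 2600000 (.cutY 700000 (.pair 183 53 104) (.pair 183 114 145)) (.pair 183 53 146))) (.pair 183 11 105)) (.cutZ 2800000 (.cutY 900000 (.pair 183 177 104) (.cutZ 2600000 (.pair 183 215 145) (.pair 183 215 146))) (.pair 183 15 105))))) .graph) (.cutX 6800000 (.cutY 990000 (.cutZ 1600000 (.cutZ 1200000 (.cutY 800000 (.cutZ 800000 (.cutY 600000 (.pair 216 34 5) (.pair 216 19 5)) (.cutY 600000 (.pair 216 34 7) (.cutZ 1000000 (.pair 216 19 21) (.pair 216 19 9)))) (.cutZ 800000 (.pair 216 21 5) (.cutZ 1000000 (.pair 216 21 21) (.pair 216 21 9)))) (.cutY 800000 (.cutY 600000 (.pair 216 34 8) (.cutZ 1400000 (.pair 216 19 110) (.pair 216 19 38))) (.cutZ 1400000 (.cutY 900000 (.pair 216 66 110) (.pair 216 39 110)) (.cutY 900000 (.pair 216 66 38) (.cutZ 1500000 (.pair 216 39 38) (.pair 216 39 112)))))) (.cutZ 2400000 (.cutY 800000 (.cutZ 2000000 (.cutY 600000 (.pair 216 186 10) (.cutZ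 1800000 (.cutY 700000 (.pair 216 126 54) (.pair 216 55 54)) (.cutY 700000 (.pair 216 126 150) (.cutZ 1900000 (.pair 216 55 69) (.pair 216 55 68))))) (.cutY 600000 (.pair 216 56 12) (.cutZ 2200000 (.cutY 700000 (.pair 216 126 57) (.cutZ 2100000 (.pair 216 55 217) (.pair 216 114 100))) (.cutY 700000 (.pair 216 218 58) (.pair 216 114 58))))) (.cutZ 2000000 (.cutZ 1800000 (.cutY 900000 (.cutZ 1700000 (.pair 216 66 187) (.pair 216 66 67)) (.cutZ 1700000 (.cutY 950000 (.pair 216 39 187) (.pair 216 115 187)) (.cutY 950000 (.cutZ 1750000 (.pair 216 152 190) (.pair 216 219 159)) (.cutZ 1750000 (.pair 216 115 190) (.pair 216 115 220))))) (.cutY 900000 (.cutZ 1900000 (.cutY 850000 (.pair 216 66 69) (.pair 216 151 69)) (.cutY 850000 (.pair 216 97 68) (.pair 216 151 68))) (.cutZ 1900000 (.cutY 950000 (.cutZ 1850000 (.pair 216 219 69) (.pair 216 152 199)) (.cutZ 1850000 (.cutX 6780000 (.pair 221 222 223) (.cutY 970000 (.pair 216 222 223) (.pair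 216 224 223))) (.cutX 6780000 (.cutY 970000 (.pair 221 222 199) (.pair 221 224 199)) (.cutY 970000 (.pair 216 222 199) (.pair 216 225 199))))) (.cutY 950000 (.cutZ 1950000 (.pair 216 152 226) (.pair 216 152 227)) (.cutZ 1950000 (.cutX 6780000 (.cutY 970000 (.pair 221 116 226) (.pair 221 225 226)) (.cutY 970000 (.pair 216 116 226) (.cutZ 1920000 (.pair 216 225 226) (.pair 216 225 175)))) (.cutX 6780000 (.cutY 970000 (.pair 221 116 227) (.pair 221 225 227)) (.cutY 970000 (.pair 216 116 227) (.pair 216 228 229)))))))) (.cutZ 2200000 (.cutY 900000 (.cutZ 2100000 (.cutY 850000 (.pair 216 97 217) (.pair 216 230 217)) (.cutY 850000 (.pair 216 97 100) (.pair 216 230 100))) (.cutZ 2100000 (.cutY 950000 (.cutZ 2050000 (.pair 216 210 211) (.pair 216 210 212)) (.cutZ 2050000 (.cutX 6780000 (.pair 221 231 211) (.cutY 970000 (.pair 216 231 211) (.pair 216 228 211))) (.pair 216 231 212))) (.cutY 950000 (.pair 216 210 100) (.pair 216 231 100))))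 (.cutY 900000 (.cutZ 2300000 (.pair 216 177 214) (.pair 216 177 182)) (.cutZ 2300000 (.pair 216 98 214) (.pair 216 98 182)))))) (.cutY 800000 (.cutZ 2800000 (.cutY 600000 (.pair 216 56 104) (.cutZ 2600000 (.cutY 700000 (.pair 216 218 104) (.pair 216 114 145)) (.pair 216 53 146))) (.pair 216 11 105)) (.cutZ 2800000 (.cutZ 2600000 (.cutY 900000 (.pair 216 177 145) (.pair 216 98 145)) (.pair 216 63 146)) (.pair 216 63 105))))) .graph) part0))

def part3 : PTree := (.cutY 1000000 (.cutZ 1800000 (.cutY 900000 (.cutZ 1700000 (.pair 147 66 54) (.pair 147 66 67)) (.cutZ 1700000 (.cutY 950000 (.pair 147 39 83) (.pair 147 115 83)) (.cutY 950000 (.pair 147 65 67) (.cutZ 1750000 (.pair 147 115 67) (.pair 147 115 81))))) (.cutY 900000 (.cutZ 1900000 (.pair 147 66 69) (.cutY 850000 (.pair 147 97 68) (.pair 147 151 68))) (.cutZ 1900000 (.cutY 950000 (.pair 147 65 69) (.cutZ 1850000 (.pair 147 115 69) (.pair 147 116 91))) (.cutY 950000 (.pair 147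 152 68) (.cutZ 1950000 (.pair 147 116 138) (.pair 147 116 121)))))) (.cutZ 1800000 (.cutZ 1700000 (.cutY 1050000 (.cutZ 1650000 (.pair 147 117 83) (.pair 147 117 118)) (.cutY 1080000 (.cutZ 1650000 (.pair 147 111 83) (.pair 147 127 118)) (.cutZ 1650000 (.pair 147 149 153) (.cutX 6680000 (.pair 154 149 118) (.cutY 1100000 (.pair 147 149 118) (.pair 147 82 118)))))) (.cutY 1050000 (.cutZ 1750000 (.pair 147 117 84) (.cutX 6680000 (.pair 154 117 81) (.cutY 1020000 (.pair 147 117 81) (.pair 147 155 81)))) (.cutY 1080000 (.cutZ 1750000 (.pair 147 156 84) (.cutX 6680000 (.pair 154 157 81) (.cutY 1060000 (.pair 147 157 81) (.pair 147 158 159)))) (.cutZ 1750000 (.cutX 6680000 (.cutX 6660000 (.pair 160 161 84) (.cutY 1100000 (.pair 154 161 84) (.pair 154 162 84))) (.cutY 1100000 (.cutZ 1720000 (.pair 147 161 84) (.pair 147 161 163)) (.cutZ 1720000 (.pair 147 162 84) (.pair 147 162 163)))) (.cutX 6680000 (.cutX 6660000 (.cutY 1100000 (.pair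 160 129 159) (.pair 160 162 159)) (.cutY 1100000 (.pair 154 129 159) (.pair 154 162 159))) (.cutY 1100000 (.cutZ 1780000 (.pair 147 129 159) (.pair 147 129 164)) (.cutZ 1780000 (.pair 147 162 159) (.pair 147 162 164)))))))) (.cutZ 1900000 (.cutY 1050000 (.cutZ 1850000 (.cutX 6680000 (.cutY 1020000 (.pair 154 120 94) (.pair 154 155 94)) (.cutY 1020000 (.pair 147 120 94) (.pair 147 155 165))) (.cutX 6680000 (.cutY 1020000 (.pair 154 120 91) (.pair 154 155 91)) (.cutY 1020000 (.pair 147 120 91) (.pair 147 166 91)))) (.cutY 1080000 (.cutZ 1850000 (.cutX 6680000 (.pair 154 157 165) (.cutY 1060000 (.pair 147 157 165) (.cutZ 1820000 (.pair 147 158 165) (.pair 147 158 167)))) (.cutX 6680000 (.pair 154 168 91) (.cutY 1060000 (.pair 147 168 91) (.pair 147 169 170)))) (.cutZ 1850000 (.cutX 6680000 (.cutX 6660000 (.cutY 1100000 (.pair 160 129 165) (.pair 160 122 165)) (.cutY 1100000 (.pair 154 171 165) (.pair 154 172 165))) (.cutY 1100000 (.cutZ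 1820000 (.pair 147 129 165) (.pair 147 171 167)) (.cutZ 1820000 (.pair 147 172 165) (.pair 147 172 167)))) (.cutX 6680000 (.cutX 6660000 (.pair 160 173 170) (.cutY 1100000 (.pair 154 171 170) (.pair 154 172 170))) (.cutY 1100000 (.cutZ 1880000 (.pair 147 171 170) (.pair 147 171 174)) (.cutZ 1880000 (.pair 147 172 170) (.pair 147 172 174))))))) (.cutY 1050000 (.cutZ 1950000 (.cutX 6680000 (.pair 154 120 138) (.cutY 1020000 (.pair 147 120 138) (.pair 147 166 138))) (.cutX 6680000 (.pair 154 120 121) (.cutY 1020000 (.pair 147 120 121) (.pair 147 166 121)))) (.cutY 1080000 (.cutZ 1950000 (.cutX 6680000 (.pair 154 168 138) (.cutY 1060000 (.pair 147 168 138) (.pair 147 169 138))) (.pair 147 168 121)) (.cutZ 1950000 (.cutX 6680000 (.cutX 6660000 (.pair 160 173 138) (.cutY 1100000 (.pair 154 171 138) (.pair 154 172 138))) (.cutY 1100000 (.cutZ 1920000 (.pair 147 171 138) (.pair 147 171 175)) (.pair 147 172 138))) (.cutX 6680000 (.pair 154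 173 121) (.cutY 1100000 (.pair 147 171 121) (.pair 147 172 121)))))))))

def part4 : PTree := (.cutZ 2000000 (.cutY 1000000 (.cutZ 1800000 (.cutY 900000 (.pair 124 66 54) (.cutZ 1700000 (.pair 124 39 83) (.cutY 950000 (.pair 124 65 67) (.pair 124 115 67)))) (.cutY 900000 (.cutZ 1900000 (.pair 124 66 69) (.pair 124 97 68)) (.cutZ 1900000 (.cutY 950000 (.pair 124 65 69) (.pair 124 116 69)) (.cutY 950000 (.pair 124 65 68) (.pair 124 116 68))))) (.cutZ 1800000 (.cutY 1100000 (.cutZ 1700000 (.cutY 1050000 (.pair 124 117 83) (.cutZ 1650000 (.pair 124 111 83) (.pair 124 111 118))) (.cutY 1050000 (.cutZ 1750000 (.pair 124 117 84) (.pair 124 117 81)) (.cutZ 1750000 (.pair 124 127 84) (.cutX 6620000 (.pair 128 76 81) (.cutY 1080000 (.pair 124 76 81) (.pair 124 129 81)))))) (.cutZ 1700000 (.cutZ 1650000 (.cutX 6620000 (.pair 128 82 86) (.cutY 1120000 (.pair 124 82 83) (.pair 124 130 86))) (.cutX 6620000 (.pair 128 82 118) (.cutY 1120000 (.pair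 124 82 118) (.cutX 6640000 (.pair 131 130 118) (.cutY 1140000 (.pair 124 130 118) (.pair 124 132 118)))))) (.cutZ 1750000 (.cutX 6620000 (.cutY 1120000 (.pair 128 82 84) (.pair 128 130 84)) (.cutY 1120000 (.pair 124 82 84) (.cutX 6640000 (.cutY 1140000 (.pair 131 130 84) (.pair 131 132 84)) (.cutY 1140000 (.pair 124 133 84) (.pair 124 132 84))))) (.cutX 6620000 (.cutY 1120000 (.pair 128 119 81) (.pair 128 134 81)) (.cutY 1120000 (.pair 124 119 81) (.cutX 6640000 (.cutY 1140000 (.pair 131 134 81) (.pair 131 135 81)) (.cutY 1140000 (.pair 124 136 81) (.pair 124 135 81)))))))) (.cutY 1100000 (.cutZ 1900000 (.cutY 1050000 (.cutZ 1850000 (.pair 124 120 94) (.pair 124 120 91)) (.cutZ 1850000 (.cutX 6620000 (.pair 128 76 94) (.cutY 1080000 (.pair 124 76 94) (.pair 124 129 94))) (.cutX 6620000 (.pair 128 76 91) (.cutY 1080000 (.pair 124 76 91) (.pair 124 129 91))))) (.cutY 1050000 (.cutZ 1950000 (.pair 124 120 75) (.pair 124 120 121)) (.cutZ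 1950000 (.pair 124 137 138) (.pair 124 137 121)))) (.cutZ 1900000 (.cutZ 1850000 (.cutX 6620000 (.cutY 1120000 (.pair 128 122 94) (.pair 128 134 94)) (.cutY 1120000 (.pair 124 122 94) (.cutX 6640000 (.cutY 1140000 (.pair 131 136 94) (.pair 131 135 94)) (.cutY 1140000 (.pair 124 139 94) (.pair 124 135 94))))) (.cutX 6620000 (.cutY 1120000 (.pair 128 122 91) (.pair 128 134 91)) (.cutY 1120000 (.pair 124 122 91) (.cutX 6640000 (.pair 131 140 91) (.cutY 1140000 (.pair 124 139 91) (.pair 124 141 91)))))) (.cutZ 1950000 (.cutX 6620000 (.pair 128 122 138) (.cutY 1120000 (.pair 124 122 138) (.pair 124 140 138))) (.cutX 6620000 (.pair 128 92 121) (.cutY 1120000 (.pair 124 92 121) (.pair 124 140 121)))))))) (.cutY 1000000 (.cutZ 2200000 (.cutY 900000 (.cutZ 2100000 (.pair 124 97 99) (.pair 124 97 100)) (.cutZ 2100000 (.cutY 950000 (.pair 124 65 99) (.pair 124 116 99)) (.pair 124 98 100))) (.cutY 900000 (.pair 124 97 58) (.pair 124 98 58)))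 (.cutZ 2200000 (.cutY 1100000 (.cutZ 2100000 (.cutY 1050000 (.pair 124 142 99) (.pair 124 123 143)) (.cutY 1050000 (.pair 124 142 100) (.pair 124 123 100))) (.cutZ 2100000 (.cutZ 2050000 (.pair 124 92 143) (.pair 124 92 144)) (.pair 124 103 100))) (.cutY 1100000 (.pair 124 101 102) (.pair 124 103 102)))))

def part5 : PTree := (.cutX 6650000 (.cutY 1150000 (.cutZ 1600000 (.cutZ 1200000 (.cutY 800000 (.cutZ 800000 (.cutY 600000 (.pair 124 34 5) (.pair 124 19 5)) (.cutY 600000 (.pair 124 34 7) (.cutZ 1000000 (.pair 124 19 21) (.pair 124 19 9)))) (.cutZ 800000 (.cutY 1000000 (.pair 124 21 5) .empty) (.cutY 1000000 (.cutZ 1000000 (.pair 124 21 21) (.pair 124 21 9)) (.cutZ 1000000 (.pair 124 109 21) (.pair 124 109 9))))) (.cutY 800000 (.cutY 600000 (.pair 124 34 8) (.cutZ 1400000 (.pair 124 19 110) (.pair 124 19 38))) (.cutY 1000000 (.cutZ 1400000 (.pair 124 21 110) (.cutY 900000 (.pair 124 66 38) (.pair 124 39 38))) (.cutZ 1400000 (.cutY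 1100000 (.pair 124 35 110) (.pair 124 125 110)) (.cutY 1100000 (.cutZ 1500000 (.pair 124 35 45) (.cutY 1050000 (.pair 124 24 112) (.pair 124 111 112))) (.cutZ 1500000 (.pair 124 125 45) (.cutZ 1550000 (.pair 124 125 112) (.pair 124 82 51)))))))) (.cutZ 2400000 (.cutY 800000 (.cutZ 2000000 (.cutY 600000 (.pair 124 34 10) (.cutZ 1800000 (.pair 124 19 54) (.cutY 700000 (.pair 124 126 26) (.pair 124 55 26)))) (.cutY 600000 (.pair 124 56 12) (.cutZ 2200000 (.cutY 700000 (.pair 124 126 57) (.pair 124 114 57)) (.cutY 700000 (.pair 124 53 58) (.pair 124 114 58))))) part4) (.cutY 800000 (.cutZ 2800000 (.cutY 600000 (.pair 124 56 104) (.pair 124 53 104)) (.pair 124 11 105)) (.cutZ 2800000 (.cutY 1000000 (.cutZ 2600000 (.pair 124 63 145) (.pair 124 63 146)) (.pair 124 106 107)) (.pair 124 15 105))))) .graph) (.cutX 6700000 (.cutY 1110000 (.cutZ 1600000 (.cutZ 1200000 (.cutY 800000 (.cutZ 800000 (.cutY 600000 (.pair 147 34 5) (.pair 147 19 5))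 (.cutY 600000 (.pair 147 34 7) (.cutZ 1000000 (.pair 147 19 21) (.pair 147 19 9)))) (.cutZ 800000 (.cutY 1000000 (.pair 147 21 5) .empty) (.cutY 1000000 (.cutZ 1000000 (.pair 147 21 21) (.pair 147 21 9)) (.cutZ 1000000 (.pair 147 109 21) (.pair 147 109 9))))) (.cutY 800000 (.cutY 600000 (.pair 147 34 8) (.cutZ 1400000 (.pair 147 19 110) (.pair 147 19 38))) (.cutY 1000000 (.cutZ 1400000 (.pair 147 21 110) (.cutY 900000 (.pair 147 66 38) (.pair 147 39 38))) (.cutZ 1400000 (.cutZ 1300000 (.pair 147 109 110) (.pair 147 109 43)) (.cutZ 1500000 (.cutY 1050000 (.pair 147 35 45) (.pair 147 148 45)) (.cutY 1050000 (.pair 147 24 112) (.cutY 1080000 (.pair 147 111 112) (.pair 147 149 112)))))))) (.cutZ 2400000 (.cutY 800000 (.cutZ 2000000 (.cutY 600000 (.pair 147 34 10) (.cutZ 1800000 (.pair 147 19 54) (.cutY 700000 (.pair 147 126 26) (.pair 147 55 150)))) (.cutY 600000 (.pair 147 56 12) (.cutZ 2200000 (.cutY 700000 (.pair 147 126 57) (.pair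 147 114 57)) (.cutY 700000 (.pair 147 53 58) (.pair 147 114 58))))) (.cutZ 2000000 part3 (.cutY 1000000 (.cutZ 2200000 (.cutY 900000 (.cutZ 2100000 (.cutY 850000 (.pair 147 97 99) (.pair 147 151 99)) (.pair 147 97 100)) (.cutZ 2100000 (.cutY 950000 (.pair 147 152 99) (.pair 147 176 99)) (.cutY 950000 (.pair 147 98 100) (.pair 147 176 100)))) (.cutY 900000 (.pair 147 177 58) (.pair 147 98 178))) (.cutZ 2200000 (.cutZ 2100000 (.cutY 1050000 (.cutZ 2050000 (.pair 147 142 143) (.pair 147 142 144)) (.cutY 1080000 (.pair 147 179 143) (.cutZ 2050000 (.pair 147 180 143) (.pair 147 180 144)))) (.cutY 1050000 (.pair 147 142 100) (.pair 147 181 100))) (.cutZ 2300000 (.cutY 1050000 (.pair 147 101 178) (.pair 147 181 178)) (.pair 147 106 182)))))) (.cutY 800000 (.cutZ 2800000 (.cutY 600000 (.pair 147 56 104) (.cutZ 2600000 (.pair 147 53 145) (.pair 147 53 146))) (.pair 147 11 105)) (.cutZ 2800000 (.cutY 1000000 (.cutZ 2600000 (.pair 147 63 145)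 (.pair 147 63 146)) (.pair 147 106 107)) (.pair 147 15 105))))) .graph) part2))

def part6 : PTree := (.cutZ 1600000 (.cutY 800000 (.cutZ 1200000 (.cutZ 800000 (.cutY 600000 (.pair 108 34 5) (.pair 108 19 5)) (.cutY 600000 (.pair 108 34 7) (.cutZ 1000000 (.pair 108 19 21) (.pair 108 19 9)))) (.cutY 600000 (.pair 108 34 8) (.cutZ 1400000 (.pair 108 19 37) (.pair 108 19 38)))) (.cutZ 1200000 (.cutZ 800000 (.cutY 1000000 (.pair 108 21 5) .empty) (.cutY 1000000 (.cutZ 1000000 (.pair 108 21 21) (.pair 108 21 9)) (.cutZ 1000000 (.pair 108 9 21) (.pair 108 109 9)))) (.cutY 1000000 (.cutZ 1400000 (.pair 108 21 110) (.cutY 900000 (.pair 108 66 38) (.pair 108 39 38))) (.cutZ 1400000 (.cutY 1100000 (.pair 108 35 110) (.cutZ 1300000 (.pair 108 22 110) (.pair 108 47 43))) (.cutY 1100000 (.cutZ 1500000 (.pair 108 35 45) (.cutY 1050000 (.pair 108 24 42) (.pair 108 111 42))) (.cutZ 1500000 (.pair 108 47 45) (.cutY 1150000 (.pair 108 82 112) (.pair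 108 113 112)))))))) (.cutZ 2400000 (.cutY 800000 (.cutZ 2000000 (.cutY 600000 (.pair 108 34 10) (.cutZ 1800000 (.pair 108 19 54) (.cutY 700000 (.pair 108 52 26) (.pair 108 55 26)))) (.cutY 600000 (.pair 108 56 12) (.cutZ 2200000 (.cutY 700000 (.pair 108 53 57) (.pair 108 55 57)) (.cutY 700000 (.pair 108 53 58) (.pair 108 114 58))))) (.cutZ 2000000 (.cutY 1000000 (.cutZ 1800000 (.cutY 900000 (.pair 108 66 54) (.cutZ 1700000 (.pair 108 39 83) (.cutY 950000 (.pair 108 65 67) (.pair 108 115 67)))) (.cutY 900000 (.cutZ 1900000 (.pair 108 66 69) (.pair 108 97 68)) (.cutZ 1900000 (.cutY 950000 (.pair 108 65 69) (.pair 108 115 69)) (.cutY 950000 (.pair 108 65 68) (.pair 108 116 68))))) (.cutZ 1800000 (.cutY 1100000 (.cutZ 1700000 (.cutY 1050000 (.pair 108 24 83) (.pair 108 111 83)) (.cutY 1050000 (.pair 108 117 71) (.cutZ 1750000 (.pair 108 76 84) (.pair 108 76 81)))) (.cutZ 1700000 (.cutY 1150000 (.cutZ 1650000 (.pair 108 82 86) (.pair 108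 82 79)) (.cutZ 1650000 (.pair 108 113 86) (.pair 108 77 118))) (.cutY 1150000 (.cutZ 1750000 (.pair 108 82 84) (.pair 108 119 81)) (.cutZ 1750000 (.pair 108 78 84) (.pair 108 78 81))))) (.cutY 1100000 (.cutZ 1900000 (.cutY 1050000 (.pair 108 120 74) (.cutZ 1850000 (.pair 108 76 94) (.pair 108 76 91))) (.cutY 1050000 (.pair 108 120 75) (.cutZ 1950000 (.pair 108 76 75) (.pair 108 76 121)))) (.cutZ 1900000 (.cutY 1150000 (.cutZ 1850000 (.pair 108 122 94) (.pair 108 122 91)) (.cutZ 1850000 (.pair 108 78 94) (.pair 108 78 91))) (.cutY 1150000 (.cutZ 1950000 (.pair 108 122 75) (.pair 108 92 121)) (.cutZ 1950000 (.pair 108 93 75) (.pair 108 93 121))))))) (.cutY 1000000 (.cutZ 2200000 (.cutY 900000 (.cutZ 2100000 (.pair 108 97 99) (.pair 108 97 100)) (.cutZ 2100000 (.cutY 950000 (.pair 108 65 99) (.pair 108 116 99)) (.pair 108 98 100))) (.cutY 900000 (.pair 108 97 58) (.pair 108 98 58))) (.cutZ 2200000 (.cutY 1100000 (.cutZ 2100000 (.cutY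 1050000 (.pair 108 120 99) (.pair 108 123 99)) (.pair 108 101 100)) (.cutZ 2100000 (.cutY 1150000 (.pair 108 92 99) (.pair 108 93 99)) (.pair 108 103 100))) (.cutY 1100000 (.pair 108 101 102) (.pair 108 103 102)))))) (.cutY 800000 (.cutZ 2800000 (.cutY 600000 (.pair 108 56 104) (.pair 108 53 104)) (.pair 108 11 105)) (.cutZ 2800000 (.cutY 1000000 (.pair 108 63 107) (.pair 108 106 107)) (.pair 108 15 105)))))

def part7 : PTree := (.cutY 1000000 (.cutX 6400000 (.cutZ 1800000 (.cutX 6300000 (.cutY 900000 (.pair 40 13 54) (.pair 40 39 59)) (.cutY 900000 (.pair 32 13 54) (.pair 32 39 59))) (.cutX 6300000 (.cutY 900000 (.pair 40 13 26) (.pair 40 65 26)) (.cutY 900000 (.pair 32 13 26) (.pair 32 65 26)))) (.cutZ 1800000 (.cutY 900000 (.pair 33 66 54) (.cutX 6500000 (.cutZ 1700000 (.pair 33 39 59) (.pair 33 65 67)) (.cutZ 1700000 (.pair 33 39 59) (.pair 33 65 67)))) (.cutY 900000 (.cutX 6500000 (.cutZ 1900000 (.pair 33 66 26) (.pair 33 66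 68)) (.cutZ 1900000 (.pair 33 66 26) (.pair 33 66 68))) (.cutX 6500000 (.cutZ 1900000 (.pair 33 65 69) (.pair 33 65 68)) (.cutZ 1900000 (.pair 33 65 69) (.pair 33 65 68)))))) (.cutX 6400000 (.cutY 1100000 (.cutZ 1800000 (.cutX 6300000 (.pair 40 28 59) (.cutZ 1700000 (.pair 32 24 59) (.pair 32 28 67))) (.cutX 6300000 (.pair 40 28 62) (.cutZ 1900000 (.pair 32 28 69) (.pair 32 28 68)))) (.cutZ 1800000 (.cutX 6300000 (.cutY 1200000 (.cutZ 1700000 (.pair 40 47 59) (.pair 40 23 67)) (.cutZ 1700000 (.pair 40 49 59) (.pair 40 49 67))) (.cutY 1200000 (.cutZ 1700000 (.cutX 6350000 (.cutY 1150000 (.pair 32 47 59) (.pair 32 50 59)) (.cutY 1150000 (.pair 32 47 59) (.pair 32 50 59))) (.pair 32 70 71)) (.cutZ 1700000 (.pair 32 49 72) (.pair 32 49 71)))) (.cutX 6300000 (.cutY 1200000 (.pair 40 70 62) (.pair 40 73 62)) (.cutY 1200000 (.cutZ 1900000 (.pair 32 70 74) (.pair 32 70 75)) (.pair 32 73 62))))) (.cutY 1100000 (.cutZ 1800000 (.cutX 6500000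 (.cutZ 1700000 (.cutX 6450000 (.pair 44 24 72) (.pair 48 24 72)) (.cutX 6450000 (.pair 44 28 71) (.cutY 1050000 (.pair 48 28 71) (.pair 48 76 71)))) (.cutZ 1700000 (.cutY 1050000 (.pair 33 24 72) (.pair 33 76 72)) (.cutY 1050000 (.pair 33 28 71) (.pair 33 76 71)))) (.cutX 6500000 (.cutZ 1900000 (.cutX 6450000 (.pair 44 28 74) (.cutY 1050000 (.pair 48 28 74) (.pair 48 76 74))) (.cutX 6450000 (.pair 44 28 75) (.pair 48 28 75))) (.cutZ 1900000 (.cutY 1050000 (.pair 33 28 74) (.pair 33 76 74)) (.cutY 1050000 (.pair 33 28 75) (.pair 33 76 75))))) (.cutZ 1800000 (.cutX 6500000 (.cutY 1200000 (.cutZ 1700000 (.cutX 6450000 (.cutY 1150000 (.pair 44 70 72) (.pair 44 50 72)) (.cutY 1150000 (.pair 48 70 72) (.pair 48 77 72))) (.cutX 6450000 (.cutY 1150000 (.pair 44 70 71) (.pair 44 77 71)) (.cutY 1150000 (.pair 48 70 71) (.pair 48 78 71)))) (.cutZ 1700000 (.cutX 6450000 (.pair 44 49 72) (.cutZ 1650000 (.pair 48 49 72) (.pair 48 49 79))) (.cutX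 6450000 (.pair 44 80 71) (.cutZ 1750000 (.pair 48 80 71) (.pair 48 80 81))))) (.cutY 1200000 (.cutZ 1700000 (.cutY 1150000 (.pair 33 82 83) (.cutZ 1650000 (.pair 33 50 83) (.pair 33 77 79))) (.cutY 1150000 (.cutZ 1750000 (.pair 33 82 71) (.pair 33 82 81)) (.cutZ 1750000 (.pair 33 78 84) (.pair 33 78 81)))) (.cutZ 1700000 (.cutZ 1650000 (.pair 33 85 86) (.cutX 6520000 (.pair 87 85 79) (.cutY 1220000 (.pair 33 85 79) (.pair 33 88 79)))) (.cutZ 1750000 (.cutX 6520000 (.pair 87 80 84) (.cutY 1220000 (.pair 33 80 84) (.pair 33 88 84))) (.cutX 6520000 (.pair 87 80 81) (.cutY 1220000 (.pair 33 80 81) (.pair 33 88 81))))))) (.cutX 6500000 (.cutY 1200000 (.cutZ 1900000 (.cutX 6450000 (.cutY 1150000 (.pair 44 70 74) (.pair 44 78 74)) (.cutY 1150000 (.pair 48 70 74) (.pair 48 78 74))) (.cutX 6450000 (.cutY 1150000 (.pair 44 70 75) (.pair 44 78 75)) (.cutY 1150000 (.pair 48 70 75) (.pair 48 78 75)))) (.cutZ 1900000 (.cutX 6450000 (.pair 44 80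 74) (.pair 48 89 74)) (.pair 90 73 75))) (.cutY 1200000 (.cutZ 1900000 (.cutY 1150000 (.cutZ 1850000 (.pair 33 82 74) (.pair 33 70 91)) (.cutZ 1850000 (.pair 33 78 74) (.pair 33 78 91))) (.cutY 1150000 (.pair 33 92 75) (.pair 33 93 75))) (.cutZ 1900000 (.cutZ 1850000 (.pair 33 89 94) (.pair 33 89 91)) (.pair 33 73 95))))))))

def part8 : PTree := (.cutZ 1600000 (.cutY 800000 (.cutZ 1200000 (.cutX 6200000 (.cutZ 800000 (.pair 31 5 5) (.cutY 600000 (.pair 31 20 7) (.pair 31 19 7))) (.cutZ 800000 (.cutX 6400000 (.pair 32 5 5) (.cutY 600000 (.pair 33 5 5) (.pair 33 19 5))) (.cutX 6400000 (.cutY 600000 (.pair 32 34 7) (.cutZ 1000000 (.pair 32 19 21) (.pair 32 19 9))) (.cutY 600000 (.pair 33 34 7) (.cutZ 1000000 (.pair 33 19 21) (.pair 33 19 9)))))) (.cutX 6200000 (.cutY 600000 (.pair 31 34 8) (.pair 31 19 8)) (.cutX 6400000 (.cutY 600000 (.pair 32 34 8) (.cutZ 1400000 (.pair 32 19 8) (.pair 32 19 25))) (.cutY 600000 (.pair 33 34 8) (.cutZ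 1400000 (.pair 33 19 8) (.pair 33 19 25)))))) (.cutZ 1200000 (.cutX 6200000 (.cutY 1000000 (.cutZ 800000 (.pair 31 21 5) (.cutZ 1000000 (.pair 31 21 21) (.pair 31 21 9))) (.cutZ 800000 .empty (.cutY 1100000 (.pair 31 35 7) (.cutZ 1000000 .empty (.pair 31 22 9))))) (.cutY 1000000 (.cutZ 800000 (.pair 36 21 5) (.cutX 6400000 (.cutZ 1000000 (.pair 32 21 21) (.pair 32 21 9)) (.cutZ 1000000 (.pair 33 21 21) (.pair 33 21 9)))) (.cutZ 800000 .empty (.cutX 6400000 (.cutY 1100000 (.cutZ 1000000 (.pair 32 35 21) (.pair 32 35 9)) (.cutZ 1000000 .empty (.pair 32 22 9))) (.cutY 1100000 (.cutZ 1000000 (.pair 33 35 21) (.pair 33 35 9)) (.cutZ 1000000 .empty (.pair 33 22 9))))))) (.cutX 6200000 (.cutY 1000000 (.cutZ 1400000 (.pair 31 21 8) (.pair 31 21 25)) (.cutY 1100000 (.cutZ 1400000 (.pair 31 35 8) (.pair 31 24 25)) (.cutZ 1400000 (.pair 31 22 37) (.pair 31 23 25)))) (.cutY 1000000 (.cutX 6400000 (.cutZ 1400000 (.pair 32 21 37) (.pair 32 21 38))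 (.cutZ 1400000 (.pair 33 21 37) (.cutY 900000 (.pair 33 21 38) (.pair 33 39 38)))) (.cutX 6400000 (.cutY 1100000 (.cutZ 1400000 (.pair 32 35 37) (.pair 32 24 38)) (.cutZ 1400000 (.cutX 6300000 (.pair 40 22 37) (.cutY 1200000 (.pair 32 22 37) (.pair 32 41 37))) (.cutX 6300000 (.cutY 1200000 (.pair 40 23 25) (.pair 40 41 25)) (.cutY 1200000 (.cutZ 1500000 (.pair 32 23 25) (.pair 32 23 42)) (.cutZ 1500000 (.pair 32 41 25) (.pair 32 41 42)))))) (.cutY 1100000 (.cutZ 1400000 (.pair 33 35 37) (.cutX 6500000 (.cutZ 1500000 (.pair 33 35 38) (.pair 33 24 42)) (.cutZ 1500000 (.pair 33 35 38) (.pair 33 24 42)))) (.cutZ 1400000 (.cutX 6500000 (.cutY 1200000 (.cutZ 1300000 (.pair 33 22 37) (.cutX 6450000 (.cutY 1150000 (.pair 33 22 43) (.pair 33 22 43)) (.pair 33 22 43))) (.cutZ 1300000 (.pair 33 41 37) (.pair 33 41 43))) (.cutY 1200000 (.cutZ 1300000 (.pair 33 22 37) (.pair 33 22 43)) (.cutZ 1300000 (.pair 33 41 37) (.pair 33 41 43)))) (.cutX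 6500000 (.cutY 1200000 (.cutZ 1500000 (.cutX 6450000 (.pair 44 23 45) (.cutY 1150000 (.pair 33 23 45) (.pair 33 46 45))) (.cutX 6450000 (.pair 44 47 42) (.cutY 1150000 (.pair 33 47 42) (.pair 48 46 42)))) (.cutZ 1500000 (.pair 33 41 45) (.cutX 6450000 (.pair 44 41 42) (.pair 48 49 42)))) (.cutY 1200000 (.cutZ 1500000 (.pair 33 47 45) (.cutY 1150000 (.pair 33 47 42) (.pair 33 50 42))) (.cutZ 1500000 (.pair 33 49 45) (.cutZ 1550000 (.pair 33 49 42) (.pair 33 49 51)))))))))))) (.cutZ 2400000 (.cutY 800000 (.cutX 6200000 (.cutZ 2000000 (.cutY 600000 (.pair 31 34 10) (.pair 31 52 10)) (.cutY 600000 (.pair 31 11 12) (.pair 31 53 12))) (.cutZ 2000000 (.cutX 6400000 (.cutY 600000 (.pair 32 34 10) (.cutZ 1800000 (.pair 32 19 10) (.pair 32 52 26))) (.cutY 600000 (.pair 33 34 10) (.cutZ 1800000 (.pair 33 19 54) (.cutY 700000 (.pair 33 52 26) (.pair 33 55 26))))) (.cutX 6400000 (.cutY 600000 (.pair 32 56 12) (.cutZ 2200000 (.pair 32 53 57) (.pair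 32 53 58))) (.cutY 600000 (.pair 33 56 12) (.cutZ 2200000 (.cutY 700000 (.pair 33 53 57) (.pair 33 55 57)) (.pair 33 53 58)))))) (.cutX 6200000 (.cutZ 2000000 (.cutY 1000000 (.cutZ 1800000 (.pair 31 13 54) (.pair 31 13 26)) (.cutY 1100000 (.cutZ 1800000 (.pair 31 28 59) (.pair 31 28 26)) (.cutZ 1800000 (.cutX 6100000 (.pair 60 23 59) (.cutY 1200000 (.pair 31 23 59) (.pair 31 49 59))) (.pair 31 61 62)))) (.cutY 1000000 (.pair 31 63 64) (.cutY 1100000 (.pair 31 28 64) (.pair 31 61 29)))) (.cutZ 2000000 part7 (.cutY 1000000 (.cutX 6400000 (.cutZ 2200000 (.cutX 6300000 (.pair 40 63 96) (.cutY 900000 (.pair 32 63 96) (.pair 32 65 96))) (.pair 32 63 58)) (.cutZ 2200000 (.cutY 900000 (.pair 33 97 96) (.cutX 6500000 (.pair 90 98 96) (.cutZ 2100000 (.pair 33 65 99) (.pair 33 98 100)))) (.cutY 900000 (.pair 33 97 58) (.pair 33 98 58)))) (.cutX 6400000 (.cutY 1100000 (.cutZ 2200000 (.pair 32 28 96) (.pair 32 101 58)) (.cutZ 2200000 (.cutX 6300000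 (.pair 40 61 96) (.cutY 1200000 (.pair 32 61 96) (.pair 32 73 96))) (.pair 32 61 102))) (.cutY 1100000 (.cutZ 2200000 (.cutX 6500000 (.cutZ 2100000 (.pair 90 101 99) (.pair 90 101 100)) (.cutZ 2100000 (.cutY 1050000 (.pair 33 101 99) (.pair 33 76 99)) (.pair 33 101 100))) (.pair 33 101 102)) (.cutZ 2200000 (.cutX 6500000 (.cutY 1200000 (.cutZ 2100000 (.cutX 6450000 (.pair 44 61 99) (.cutY 1150000 (.pair 90 92 99) (.pair 90 93 99))) (.pair 90 61 100)) (.pair 90 73 96)) (.cutY 1200000 (.cutZ 2100000 (.cutY 1150000 (.pair 33 92 99) (.pair 33 93 99)) (.pair 33 103 100)) (.cutZ 2100000 (.pair 33 73 99) (.pair 33 73 100)))) (.pair 33 61 102)))))))) (.cutY 800000 (.cutX 6200000 (.cutZ 2800000 (.pair 31 11 104) (.pair 31 11 105)) (.cutZ 2800000 (.cutX 6400000 (.cutY 600000 (.pair 32 56 104) (.pair 32 53 104)) (.cutY 600000 (.pair 33 56 104) (.pair 33 53 104))) (.pair 36 11 105))) (.cutX 6200000 (.cutZ 2800000 (.cutY 1000000 (.pair 31 63 104)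 (.pair 31 106 30)) (.pair 31 15 105)) (.cutZ 2800000 (.cutY 1000000 (.pair 36 63 104) (.pair 36 106 107)) (.pair 36 15 105))))))

def tree : PTree := (.cutX 6550000 (.cutY 1250000 (.cutX 5600000 (.cutX 5200000 (.cutZ 1600000 (.pair 0 1 2) (.pair 0 1 3)) (.cutZ 1600000 (.cutY 800000 (.cutZ 1200000 (.cutZ 800000 (.pair 4 5 6) (.pair 4 5 7)) (.pair 4 5 8)) (.cutZ 1200000 (.cutY 1000000 (.cutZ 800000 (.pair 4 7 5) (.pair 4 7 7)) (.cutZ 800000 .empty (.pair 4 9 7))) (.cutY 1000000 (.pair 4 7 8) (.pair 4 9 8)))) (.cutZ 2400000 (.cutY 800000 (.cutZ 2000000 (.pair 4 5 10) (.pair 4 11 12)) (.cutZ 2000000 (.cutY 1000000 (.pair 4 13 10) (.pair 4 14 10)) (.pair 4 15 12))) (.cutY 800000 (.pair 4 11 16) (.pair 4 15 16))))) (.cutX 6000000 (.cutZ 1600000 (.cutY 800000 (.cutZ 1200000 (.cutZ 800000 (.pair 17 5 5) (.cutX 5800000 (.pair 18 5 7) (.cutY 600000 (.pair 17 5 7) (.pair 17 19 7)))) (.pair 17 20 8)) (.cutZ 1200000 (.cutY 1000000 (.cutZ 800000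 (.pair 17 7 5) (.pair 17 21 7)) (.cutZ 800000 .empty (.cutX 5800000 (.pair 18 9 7) (.cutY 1100000 (.pair 17 9 7) (.pair 17 22 7))))) (.cutY 1000000 (.pair 17 21 8) (.cutX 5800000 (.cutY 1100000 (.pair 18 14 8) (.pair 18 23 8)) (.cutY 1100000 (.pair 17 24 8) (.cutZ 1400000 (.pair 17 22 8) (.pair 17 23 25))))))) (.cutZ 2400000 (.cutY 800000 (.cutZ 2000000 (.cutX 5800000 (.pair 18 20 10) (.cutY 600000 (.pair 17 20 10) (.pair 17 19 10))) (.pair 17 11 12)) (.cutZ 2000000 (.cutY 1000000 (.cutX 5800000 (.pair 18 13 10) (.cutZ 1800000 (.pair 17 13 10) (.pair 17 13 26))) (.cutX 5800000 (.pair 18 14 27) (.cutY 1100000 (.pair 17 28 27) (.cutZ 1800000 (.pair 17 23 27) (.pair 17 23 26))))) (.cutY 1000000 (.pair 17 13 12) (.cutX 5800000 (.pair 18 14 29) (.pair 17 14 29))))) (.cutY 800000 (.pair 17 11 16) (.pair 17 15 30)))) part8)) .graph) (.cutX 6600000 (.cutY 1180000 part6 .graph) part5))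

theorem tree_ok : PTree.ok bin items tree = true := by
  simp only [PTree.ok, Bool.and_eq_true]
  refine ⟨⟨by decide +kernel, ?_⟩, by decide +kernel⟩
  simp only [items, List.all_append, chunk0_ok, chunk1_ok, chunk2_ok, chunk3_ok, chunk4_ok, chunk5_ok, chunk6_ok, chunk7_ok, chunk8_ok, chunk9_ok, chunk10_ok, chunk11_ok, chunk12_ok, chunk13_ok, chunk14_ok, Bool.and_self]

end Vale.Agent.P232.GapPair.Bin6
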